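import Vale.Agent.P181.H411.UDefs

/-!
P181, the upper bound for the kernel: the coefficients of a configuration are symmetric in the
letters, and the letters have at most `a` cells (rows (C3), (C4) of helper411).
-/

set_option autoImplicit false

open MvPolynomial

namespace Vale.Agent.P181.H411.UB

open Vale.Agent.P181 Vale.Agent.P181.H536 Vale.Agent.P181.H280 Vale.Agent.P181.TN
  Vale.Agent.P181.TW

variable {n : ℕ}

/-- (C3) The coefficients are symmetric in the letters. -/
theorem cf_perm (b : ℕ) {a N : ℕ} (v : Fin N → Fin (n + 1) → ℕ) (F : Fm n a)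
    (σ : Equiv.Perm (Fin N)) : cf b (fun j => v (σ j)) F = cf b v F := by
  classical
  unfold cf
  refine Finset.sum_bij' (fun T _ => fun s j => T s (σ.symm j)) (fun T _ => fun s j => T s (σ j))
    ?_ ?_ ?_ ?_ ?_
  · intro T hT
    rw [Finset.mem_filter] at hT ⊢
    refine ⟨Finset.mem_univ _, fun j => ?_⟩
    have h1 := hT.2 (σ.symm j)
    simp only [Equiv.apply_symm_apply] at h1
    exact h1
  · intro T hT
    rw [Finset.mem_filter] at hT ⊢
    exact ⟨Finset.mem_univ _, fun j => hT.2 (σ j)⟩
  · intro T _
    funext s j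
    simp only [Equiv.symm_apply_apply]
  · intro T _
    funext s j
    simp only [Equiv.apply_symm_apply]
  · intro T _
    congr 1
    funext s
    congr 1
    exact (Equiv.prod_comp σ.symm (fun j => el (n := n) (T s j))).symm

/-- (C4) The letters of a configuration have at most `a` cells. -/
theorem cf_deg {b a N : ℕ} {v : Fin N → Fin (n + 1) → ℕ} {F : Fm n a} (h : cf b v F ≠ 0)
    (j : Fin N) : ∑ i, v j i ≤ a := by
  classical
  unfold cf at h
  obtain ⟨T, hT, -⟩ := Finset.exists_ne_zero_of_sum_ne_zero h
  rw [Finset.mem_filter] at hT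
  rw [← hT.2 j]
  exact sum_co_le _

end Vale.Agent.P181.H411.UB
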